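import Mathlib

/-!
# P033: runs along arithmetic progressions in the first row of a circulant Hadamard matrix

If `h : ZMod n -> {1,-1}` is the first row of a circulant Hadamard matrix of order `n`, then `h`
cannot be constant (or alternating) along `R` consecutive terms of an arithmetic progression
`a, a + d, a + 2 d, ...` (with `R` distinct terms) unless `3 R ^ 2 <= 8 n`.
-/

open Finset

namespace Vale.Agent.Results.P033.RunLength


variable {n : ℕ} [NeZero n]

lemma autocorr (h : ZMod n → ℤ)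
    (H : (Matrix.of fun i j : ZMod n => h (j - i)) *
        (Matrix.of fun i j : ZMod n => h (j - i)).transpose =
        (n : ℤ) • (1 : Matrix (ZMod n) (ZMod n) ℤ))
    (x y : ZMod n) : ∑ j, h (j + x) * h (j + y) = if x = y then (n : ℤ) else 0 := by
  have h1 := congrFun (congrFun H (-x)) (-y)
  simp only [Matrix.mul_apply, Matrix.transpose_apply, Matrix.of_apply, Matrix.smul_apply,
    Matrix.one_apply, sub_neg_eq_add, neg_inj, smul_eq_mul, mul_ite, mul_one, mul_zero] at h1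
  exact h1

lemma window_sq (h : ZMod n → ℤ)
    (H : (Matrix.of fun i j : ZMod n => h (j - i)) *
        (Matrix.of fun i j : ZMod n => h (j - i)).transpose =
        (n : ℤ) • (1 : Matrix (ZMod n) (ZMod n) ℤ))
    (d : ZMod n) (L : ℕ) (hL : L ≤ addOrderOf d) (c : ℕ → ℤ) (hc : ∀ i, c i * c i = 1) :
    ∑ j, (∑ i ∈ range L, c i * h (j + i • d)) ^ 2 = L * n := by
  have e1 : ∀ j : ZMod n, (∑ i ∈ range L, c i * h (j + i • d)) ^ 2 =
      ∑ i ∈ range L, ∑ i' ∈ range L, (c i * c i') * (h (j + i • d) * h (j + i' • d)) := by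
    intro j
    rw [sq, Finset.sum_mul_sum]
    refine Finset.sum_congr rfl fun i _ => Finset.sum_congr rfl fun i' _ => by ring
  simp_rw [e1]
  rw [Finset.sum_comm]
  have e2 : ∀ i ∈ range L, ∑ j : ZMod n, ∑ i' ∈ range L,
      (c i * c i') * (h (j + i • d) * h (j + i' • d)) = n := by
    intro i hi
    rw [Finset.sum_comm]
    simp_rw [← Finset.mul_sum, autocorr h H]
    rw [Finset.sum_eq_single i]
    · simp [hc]
    · intro b hb hne
      have : i • d ≠ b • d := by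
        intro heq
        apply hne
        have := nsmul_injOn_Iio_addOrderOf (x := d)
          (show i ∈ Set.Iio (addOrderOf d) from lt_of_lt_of_le (Finset.mem_range.1 hi) hL)
          (show b ∈ Set.Iio (addOrderOf d) from lt_of_lt_of_le (Finset.mem_range.1 hb) hL) heq
        exact this.symm
      rw [if_neg this, mul_zero]
    · intro hni; exact absurd hi hni
  rw [Finset.sum_congr rfl e2]
  simp


/-- window sums of a plus-minus-one valued function -/
def V (f : ℕ → ℤ) (L : ℕ) (t : ℕ) : ℤ := ∑ i ∈ range L, f (t + i)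

lemma V_succ (f : ℕ → ℤ) (L t : ℕ) : V f L (t + 1) = V f L t + f (t + L) - f t := by
  unfold V
  have h1 : ∑ i ∈ range (L + 1), f (t + i) = ∑ i ∈ range L, f (t + i) + f (t + L) :=
    Finset.sum_range_succ _ _
  have h2 : ∑ i ∈ range (L + 1), f (t + i) = ∑ i ∈ range L, f (t + (i + 1)) + f (t + 0) :=
    Finset.sum_range_succ' _ _
  have h3 : ∑ i ∈ range L, f (t + 1 + i) = ∑ i ∈ range L, f (t + (i + 1)) := by
    refine Finset.sum_congr rfl fun i _ => ?_
    congr 1; ring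
  rw [h3]
  simp only [add_zero] at h2
  linarith

lemma V_plateau (f : ℕ → ℤ) (L t lo hi : ℕ) (hrun : ∀ p, lo ≤ p → p < hi → f p = 1)
    (h1 : lo ≤ t) (h2 : t + L ≤ hi) : V f L t = L := by
  unfold V
  rw [Finset.sum_congr rfl (g := fun _ => (1 : ℤ))]
  · simp
  · intro i hi'
    have := Finset.mem_range.1 hi'
    exact hrun _ (by omega) (by omega)

lemma V_left (f : ℕ → ℤ) (hf : ∀ p, -1 ≤ f p ∧ f p ≤ 1) (L t0 : ℕ) (k : ℕ) (hk : k ≤ t0) :
    V f L t0 - 2 * k ≤ V f L (t0 - k) := by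
  induction k with
  | zero => simp
  | succ k ih =>
    have ih' := ih (by omega)
    have e : t0 - k = (t0 - (k + 1)) + 1 := by omega
    rw [e, V_succ] at ih'
    have a1 := hf (t0 - (k + 1) + L)
    have a2 := hf (t0 - (k + 1))
    push_cast
    linarith [a1.1, a1.2, a2.1, a2.2]

lemma V_right (f : ℕ → ℤ) (hf : ∀ p, -1 ≤ f p ∧ f p ≤ 1) (L t0 : ℕ) (k : ℕ) :
    V f L t0 - 2 * k ≤ V f L (t0 + k) := by
  induction k with
  | zero => simp
  | succ k ih =>
    have e : t0 + (k + 1) = (t0 + k) + 1 := by omega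
    rw [e, V_succ]
    have a1 := hf (t0 + k + L)
    have a2 := hf (t0 + k)
    push_cast
    linarith [a1.1, a1.2, a2.1, a2.2]

lemma sum_sq (m : ℕ) : 6 * ∑ x ∈ range m, ((2 : ℤ) * ((x : ℤ) + 1)) ^ 2 =
    4 * ((m : ℤ) * ((m : ℤ) + 1) * (2 * (m : ℤ) + 1)) := by
  induction m with
  | zero => simp
  | succ k ih =>
    rw [Finset.sum_range_succ, mul_add, ih]
    push_cast
    ring

lemma ramp (f : ℕ → ℤ) (hf : ∀ p, -1 ≤ f p ∧ f p ≤ 1) (m q : ℕ)
    (hrun : ∀ p, m ≤ p → p < m + (q + 2 * m + 2) → f p = 1) :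
    ((q : ℤ) + 1) * (2 * (m + 1)) ^ 2 + 2 * ∑ x ∈ range m, ((2 : ℤ) * (x + 1)) ^ 2 ≤
      ∑ t ∈ range (m + (q + 1) + m), (V f (2 * (m + 1)) t) ^ 2 := by
  rw [Finset.sum_range_add, Finset.sum_range_add]
  have hpl : ∀ t, m ≤ t → t ≤ m + q → V f (2 * (m + 1)) t = 2 * (m + 1) := by
    intro t h1 h2
    have := V_plateau f (2 * (m + 1)) t m (m + (q + 2 * m + 2)) hrun h1 (by omega)
    rw [this]; push_cast; ring
  -- left ramp
  have hA : ∑ x ∈ range m, ((2 : ℤ) * (x + 1)) ^ 2 ≤ ∑ x ∈ range m, (V f (2 * (m + 1)) x) ^ 2 := by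
    refine Finset.sum_le_sum fun x hx => ?_
    have hx' := Finset.mem_range.1 hx
    have h1 := V_left f hf (2 * (m + 1)) m (m - x) (by omega)
    rw [hpl m le_rfl (by omega)] at h1
    have e : m - (m - x) = x := by omega
    rw [e] at h1
    have e2 : ((m - x : ℕ) : ℤ) = (m : ℤ) - x := by
      rw [Nat.cast_sub (by omega)]
    rw [e2] at h1
    have h0 : (0 : ℤ) ≤ 2 * (x + 1) := by positivity
    have h2 : (2 : ℤ) * (x + 1) ≤ V f (2 * (m + 1)) x := by linarith
    exact pow_le_pow_left₀ h0 h2 2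
  -- plateau
  have hB : ∑ x ∈ range (q + 1), (V f (2 * (m + 1)) (m + x)) ^ 2 = ((q : ℤ) + 1) * (2 * (m + 1)) ^ 2 := by
    rw [Finset.sum_congr rfl (g := fun _ => ((2 : ℤ) * (m + 1)) ^ 2)]
    · simp
    · intro x hx
      have hx' := Finset.mem_range.1 hx
      rw [hpl (m + x) (by omega) (by omega)]
  -- right ramp
  have hC : ∑ x ∈ range m, ((2 : ℤ) * (x + 1)) ^ 2 ≤
      ∑ x ∈ range m, (V f (2 * (m + 1)) (m + (q + 1) + x)) ^ 2 := by
    rw [← Finset.sum_range_reflect]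
    refine Finset.sum_le_sum fun x hx => ?_
    have hx' := Finset.mem_range.1 hx
    have h1 := V_right f hf (2 * (m + 1)) (m + q) (x + 1)
    rw [hpl (m + q) (by omega) le_rfl] at h1
    have e : m + q + (x + 1) = m + (q + 1) + x := by omega
    rw [e] at h1
    have e2 : ((m - 1 - x : ℕ) : ℤ) = (m : ℤ) - 1 - x := by
      rw [Nat.cast_sub (by omega), Nat.cast_sub (by omega)]; simp
    rw [e2]
    have h0 : (0 : ℤ) ≤ 2 * ((m : ℤ) - 1 - x + 1) := by
      have : (x : ℤ) + 1 ≤ m := by exact_mod_cast hx'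
      linarith
    have h2 : (2 : ℤ) * ((m : ℤ) - 1 - x + 1) ≤ V f (2 * (m + 1)) (m + (q + 1) + x) := by
      push_cast at h1
      linarith
    exact pow_le_pow_left₀ h0 h2 2
  linarith

lemma key (h : ZMod n → ℤ) (hpm : ∀ j, h j = 1 ∨ h j = -1)
    (H : (Matrix.of fun i j : ZMod n => h (j - i)) *
        (Matrix.of fun i j : ZMod n => h (j - i)).transpose =
        (n : ℤ) • (1 : Matrix (ZMod n) (ZMod n) ℤ))
    (a d : ZMod n) (m q : ℕ) (hR : q + 2 * m + 2 ≤ addOrderOf d)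
    (ε : ℤ) (hε : ε = 1 ∨ ε = -1)
    (hrun : ∀ i < q + 2 * m + 2, h (a + i • d) = ε ^ i * h a) :
    6 * ((q : ℤ) + 1) * (m + 1) + 2 * m * (2 * m + 1) ≤ 3 * n := by
  have hεε : ε * ε = 1 := by rcases hε with h | h <;> simp [h]
  have hhh : ∀ j, h j * h j = 1 := by intro j; rcases hpm j with h | h <;> simp [h]
  have hpow : ∀ i : ℕ, ε ^ i * ε ^ i = 1 := by
    intro i; rw [← mul_pow, hεε, one_pow]
  have hpow' : ∀ i : ℕ, ε ^ i = 1 ∨ ε ^ i = -1 := by
    intro i
    have := hpow i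
    exact mul_self_eq_one_iff.1 this
  set a' : ZMod n := a - m • d with ha'
  set s0 : ℤ := ε ^ m * h a with hs0
  have hs0s : s0 * s0 = 1 := by
    rw [hs0]; calc ε ^ m * h a * (ε ^ m * h a) = (ε ^ m * ε ^ m) * (h a * h a) := by ring
      _ = 1 := by rw [hpow, hhh]; norm_num
  set f : ℕ → ℤ := fun p => ε ^ p * h (a' + p • d) * s0 with hf_def
  have hfsq : ∀ p, f p * f p = 1 := by
    intro p
    calc f p * f p = (ε ^ p * ε ^ p) * (h (a' + p • d) * h (a' + p • d)) * (s0 * s0) := by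
          simp only [hf_def]; ring
      _ = 1 := by rw [hpow, hhh, hs0s]; norm_num
  have hf : ∀ p, -1 ≤ f p ∧ f p ≤ 1 := by
    intro p
    rcases mul_self_eq_one_iff.1 (hfsq p) with h | h <;> rw [h] <;> norm_num
  have hrun' : ∀ p, m ≤ p → p < m + (q + 2 * m + 2) → f p = 1 := by
    intro p h1 h2
    obtain ⟨i, rfl⟩ := Nat.exists_eq_add_of_le h1
    have hi : i < q + 2 * m + 2 := by omega
    have e : a' + (m + i) • d = a + i • d := by
      rw [ha', add_smul]; abel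
    simp only [hf_def]
    rw [e, hrun i hi, hs0, pow_add]
    calc ε ^ m * ε ^ i * (ε ^ i * h a) * (ε ^ m * h a)
        = (ε ^ m * ε ^ m) * (ε ^ i * ε ^ i) * (h a * h a) := by ring
      _ = 1 := by rw [hpow, hpow, hhh]; norm_num
  have hramp := ramp f hf m q hrun'
  -- relate V to window sums
  have hV : ∀ t, (V f (2 * (m + 1)) t) ^ 2 =
      (∑ i ∈ range (2 * (m + 1)), ε ^ i * h ((a' + t • d) + i • d)) ^ 2 := by
    intro t
    have e : V f (2 * (m + 1)) t =
        (ε ^ t * s0) * ∑ i ∈ range (2 * (m + 1)), ε ^ i * h ((a' + t • d) + i • d) := by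
      unfold V
      rw [Finset.mul_sum]
      refine Finset.sum_congr rfl fun i _ => ?_
      simp only [hf_def]
      rw [pow_add, add_smul, add_assoc]
      ring
    rw [e, mul_pow]
    have : (ε ^ t * s0) ^ 2 = 1 := by
      calc (ε ^ t * s0) ^ 2 = (ε ^ t * ε ^ t) * (s0 * s0) := by ring
        _ = 1 := by rw [hpow, hs0s]; norm_num
    rw [this, one_mul]
  have hinj : Set.InjOn (fun t : ℕ => a' + t • d) (range (m + (q + 1) + m) : Set ℕ) := by
    intro t ht t' ht' heq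
    have ht1 : t < addOrderOf d := by
      have := Finset.mem_range.1 (Finset.mem_coe.1 ht); omega
    have ht2 : t' < addOrderOf d := by
      have := Finset.mem_range.1 (Finset.mem_coe.1 ht'); omega
    have heq' : t • d = t' • d := add_left_cancel heq
    exact nsmul_injOn_Iio_addOrderOf (x := d) ht1 ht2 heq'
  have hsum : ∑ t ∈ range (m + (q + 1) + m), (V f (2 * (m + 1)) t) ^ 2 ≤
      ∑ j : ZMod n, (∑ i ∈ range (2 * (m + 1)), ε ^ i * h (j + i • d)) ^ 2 := by
    simp_rw [hV]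
    rw [← Finset.sum_image (f := fun j : ZMod n =>
      (∑ i ∈ range (2 * (m + 1)), ε ^ i * h (j + i • d)) ^ 2) (g := fun t : ℕ => a' + t • d) hinj]
    exact Finset.sum_le_univ_sum_of_nonneg (fun j => sq_nonneg _)
  rw [window_sq h H d (2 * (m + 1)) (by omega) (fun i => ε ^ i) hpow] at hsum
  have hs := sum_sq m
  have hm : (0 : ℤ) < (m : ℤ) + 1 := by positivity
  push_cast at hsum
  -- combine
  have h1 : 3 * (((q : ℤ) + 1) * (2 * (m + 1)) ^ 2) + 4 * ((m : ℤ) * ((m : ℤ) + 1) * (2 * (m : ℤ) + 1))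
      ≤ 3 * (2 * ((m : ℤ) + 1) * n) := by
    linarith
  have h2 : (2 * ((m : ℤ) + 1)) * (6 * ((q : ℤ) + 1) * (m + 1) + 2 * m * (2 * m + 1)) ≤
      (2 * ((m : ℤ) + 1)) * (3 * n) := by
    nlinarith
  exact le_of_mul_le_mul_left h2 (by positivity)

theorem result (n : ℕ) [NeZero n] (h : ZMod n → ℤ) (hpm : ∀ j, h j = 1 ∨ h j = -1)
    (H : (Matrix.of fun i j : ZMod n => h (j - i)) *
        (Matrix.of fun i j : ZMod n => h (j - i)).transpose =
        (n : ℤ) • (1 : Matrix (ZMod n) (ZMod n) ℤ))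
    (a d : ZMod n) (R : ℕ) (hR : R ≤ addOrderOf d)
    (ε : ℤ) (hε : ε = 1 ∨ ε = -1)
    (hrun : ∀ i < R, h (a + i • d) = ε ^ i * h a) :
    3 * R ^ 2 ≤ 8 * n := by
  have hn : 1 ≤ n := Nat.one_le_iff_ne_zero.2 (NeZero.ne n)
  by_cases hR1 : R ≤ 1
  · interval_cases R <;> omega
  · rw [not_le] at hR1
    obtain ⟨m, hm⟩ : ∃ m, (3 * R + 4) / 8 = m + 1 := ⟨(3 * R + 4) / 8 - 1, by omega⟩
    obtain ⟨q, hq⟩ : ∃ q, R = q + 2 * m + 2 := ⟨R - 2 * m - 2, by omega⟩
    subst hq
    have hk := key h hpm H a d m q hR ε hε hrun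
    have b1 : 3 * (q + 2 * m + 2) + 4 < 8 * (m + 1) + 8 := by omega
    have b2 : 8 * (m + 1) ≤ 3 * (q + 2 * m + 2) + 4 := by omega
    have b1' : 3 * ((q : ℤ) + 2 * m + 2) + 4 < 8 * (m + 1) + 8 := by exact_mod_cast b1
    have b2' : 8 * ((m : ℤ) + 1) ≤ 3 * (q + 2 * m + 2) + 4 := by exact_mod_cast b2
    have : 3 * ((q : ℤ) + 2 * m + 2) ^ 2 ≤ 8 * n := by
      nlinarith [mul_nonneg (sub_nonneg.2 b2') (sub_nonneg.2 b1'.le)]
    exact_mod_cast this

end Vale.Agent.Results.P033.RunLength
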