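import Mathlib

/-!
# P033: a sharp bound for runs in the first row of a circulant Hadamard matrix

If `h : ZMod n -> {1,-1}` is the first row of a circulant Hadamard matrix of order `n` and `h` is
constant (or alternating) along `R` distinct consecutive terms of an arithmetic progression of
`ZMod n`, then `n * sin (pi / (2 R)) ^ 2 >= 1`, hence `R <= (pi / 2) * sqrt n`.
Equality holds for the order 4 matrix with first row `1, 1, 1, -1` and `R = 3`.
The proof tests the flat autocorrelation against the half-sine window of length `R`.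
-/

open Finset Real

namespace Vale.Agent.Results.P033.SharpRun



/-- sum of cosines over a full period vanishes -/
lemma trig_sum (R : ℕ) (hR : 2 ≤ R) (α : ℝ) :
    ∑ i ∈ range R, cos (α + i * (2 * π / R)) = 0 := by
  have hR0 : (0 : ℝ) < R := by positivity
  have hR2 : (2 : ℝ) ≤ R := by exact_mod_cast hR
  have hs : 0 < sin (π / R) := by
    apply sin_pos_of_pos_of_lt_pi
    · positivity
    · rw [div_lt_iff₀ hR0]
      nlinarith [pi_pos]
  have key : ∀ i : ℕ, 2 * sin (π / R) * cos (α + i * (2 * π / R)) =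
      sin (α - π / R + ((i + 1 : ℕ) : ℝ) * (2 * π / R)) - sin (α - π / R + (i : ℝ) * (2 * π / R)) := by
    intro i
    have e1 : α - π / R + ((i + 1 : ℕ) : ℝ) * (2 * π / R) = (α + i * (2 * π / R)) + π / R := by
      push_cast; ring
    have e2 : α - π / R + (i : ℝ) * (2 * π / R) = (α + i * (2 * π / R)) - π / R := by ring
    rw [e1, e2, sin_add, sin_sub]; ring
  have h1 : 2 * sin (π / R) * ∑ i ∈ range R, cos (α + i * (2 * π / R)) = 0 := by
    rw [Finset.mul_sum, Finset.sum_congr rfl (fun i _ => key i),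
      Finset.sum_range_sub (fun i : ℕ => sin (α - π / R + (i : ℝ) * (2 * π / R)))]
    have e3 : α - π / R + (R : ℝ) * (2 * π / R) = (α - π / R) + 2 * π := by
      field_simp
    rw [e3, sin_add_two_pi]; simp
  rcases mul_eq_zero.1 h1 with h | h
  · exfalso; linarith
  · exact h

lemma cos_sq_sum (R : ℕ) (hR : 2 ≤ R) (β : ℝ) :
    ∑ i ∈ range R, cos (β + i * (π / R)) ^ 2 = R / 2 := by
  have e : ∀ i : ℕ, cos (β + i * (π / R)) ^ 2 = 1 / 2 + (1 / 2) * cos (2 * β + i * (2 * π / R)) := by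
    intro i
    rw [cos_sq]
    have : 2 * (β + (i : ℝ) * (π / R)) = 2 * β + i * (2 * π / R) := by ring
    rw [this]; ring
  rw [Finset.sum_congr rfl (fun i _ => e i), Finset.sum_add_distrib, ← Finset.mul_sum,
    trig_sum R hR]
  simp
  ring

lemma sin_sq_sum (R : ℕ) (hR : 2 ≤ R) :
    ∑ i ∈ range R, sin ((2 * i + 1) * (π / R) / 2) ^ 2 = R / 2 := by
  have e : ∀ i : ℕ, sin ((2 * i + 1) * (π / R) / 2) ^ 2 =
      1 / 2 - (1 / 2) * cos (π / R + i * (2 * π / R)) := by
    intro i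
    rw [sin_sq, cos_sq]
    have : 2 * ((2 * (i : ℝ) + 1) * (π / R) / 2) = π / R + i * (2 * π / R) := by ring
    rw [this]; ring
  rw [Finset.sum_congr rfl (fun i _ => e i), Finset.sum_sub_distrib, ← Finset.mul_sum,
    trig_sum R hR]
  simp
  ring

/-- partial sums of the sine weights -/
lemma partial_sum (θ : ℝ) (k : ℕ) :
    2 * sin (θ / 2) * ∑ i ∈ range k, sin ((2 * i + 1) * θ / 2) = 1 - cos (k * θ) := by
  induction k with
  | zero => simp
  | succ k ih =>
    rw [Finset.sum_range_succ, mul_add, ih]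
    have e1 : ((k + 1 : ℕ) : ℝ) * θ = (2 * k + 1) * θ / 2 + θ / 2 := by push_cast; ring
    have e2 : (k : ℝ) * θ = (2 * k + 1) * θ / 2 - θ / 2 := by ring
    rw [e1, e2, cos_add, cos_sub]; ring



variable {n : ℕ} [NeZero n]

lemma autocorr (h : ZMod n → ℤ)
    (H : (Matrix.of fun i j : ZMod n => h (j - i)) *
        (Matrix.of fun i j : ZMod n => h (j - i)).transpose =
        (n : ℤ) • (1 : Matrix (ZMod n) (ZMod n) ℤ))
    (x y : ZMod n) : ∑ j, h (j + x) * h (j + y) = if x = y then (n : ℤ) else 0 := by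
  have h1 := congrFun (congrFun H (-x)) (-y)
  simp only [Matrix.mul_apply, Matrix.transpose_apply, Matrix.of_apply, Matrix.smul_apply,
    Matrix.one_apply, sub_neg_eq_add, neg_inj, smul_eq_mul, mul_ite, mul_one, mul_zero] at h1
  exact h1

lemma autocorr_real (h : ZMod n → ℤ)
    (H : (Matrix.of fun i j : ZMod n => h (j - i)) *
        (Matrix.of fun i j : ZMod n => h (j - i)).transpose =
        (n : ℤ) • (1 : Matrix (ZMod n) (ZMod n) ℤ))
    (x y : ZMod n) :
    ∑ j, (h (j + x) : ℝ) * (h (j + y) : ℝ) = if x = y then (n : ℝ) else 0 := by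
  have := autocorr h H x y
  have h2 : ((∑ j, h (j + x) * h (j + y) : ℤ) : ℝ) = ((if x = y then (n : ℤ) else 0 : ℤ) : ℝ) := by
    rw [this]
  push_cast at h2
  rw [h2]

lemma window_sq_real (h : ZMod n → ℤ)
    (H : (Matrix.of fun i j : ZMod n => h (j - i)) *
        (Matrix.of fun i j : ZMod n => h (j - i)).transpose =
        (n : ℤ) • (1 : Matrix (ZMod n) (ZMod n) ℤ))
    (d : ZMod n) (L : ℕ) (hL : L ≤ addOrderOf d) (w : ℕ → ℝ) :
    ∑ j, (∑ i ∈ range L, w i * (h (j + i • d) : ℝ)) ^ 2 = n * ∑ i ∈ range L, (w i) ^ 2 := by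
  have e1 : ∀ j : ZMod n, (∑ i ∈ range L, w i * (h (j + i • d) : ℝ)) ^ 2 =
      ∑ i ∈ range L, ∑ i' ∈ range L,
        (w i * w i') * ((h (j + i • d) : ℝ) * (h (j + i' • d) : ℝ)) := by
    intro j
    rw [sq, Finset.sum_mul_sum]
    refine Finset.sum_congr rfl fun i _ => Finset.sum_congr rfl fun i' _ => by ring
  simp_rw [e1]
  rw [Finset.sum_comm, Finset.mul_sum]
  refine Finset.sum_congr rfl fun i hi => ?_
  rw [Finset.sum_comm]
  simp_rw [← Finset.mul_sum, autocorr_real h H]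
  rw [Finset.sum_eq_single i]
  · rw [if_pos rfl]; ring
  · intro b hb hne
    have : i • d ≠ b • d := by
      intro heq
      apply hne
      have := nsmul_injOn_Iio_addOrderOf (x := d)
        (show i ∈ Set.Iio (addOrderOf d) from lt_of_lt_of_le (Finset.mem_range.1 hi) hL)
        (show b ∈ Set.Iio (addOrderOf d) from lt_of_lt_of_le (Finset.mem_range.1 hb) hL) heq
      exact this.symm
    rw [if_neg this, mul_zero]
  · intro hni; exact absurd hi hni

lemma lowerL (c g : ℕ → ℝ) (R M τ k : ℕ) (hc : ∀ i < R, 0 ≤ c i) (hg : ∀ p, -1 ≤ g p)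
    (hrun : ∀ p, M ≤ p → p < M + R → g p = 1) (hk : τ + k = M) (hkR : k ≤ R) :
    ∑ i ∈ range R, c i - 2 * ∑ i ∈ range k, c i ≤ ∑ i ∈ range R, c i * g (τ + i) := by
  obtain ⟨r, rfl⟩ := Nat.exists_eq_add_of_le hkR
  rw [Finset.sum_range_add, Finset.sum_range_add]
  have h1 : -∑ i ∈ range k, c i ≤ ∑ i ∈ range k, c i * g (τ + i) := by
    rw [← Finset.sum_neg_distrib]
    refine Finset.sum_le_sum fun i hi => ?_
    have := hc i (by have := Finset.mem_range.1 hi; omega)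
    nlinarith [hg (τ + i)]
  have h2 : ∑ x ∈ range r, c (k + x) * g (τ + (k + x)) = ∑ x ∈ range r, c (k + x) := by
    refine Finset.sum_congr rfl fun x hx => ?_
    have := Finset.mem_range.1 hx
    rw [hrun (τ + (k + x)) (by omega) (by omega), mul_one]
  rw [h2]; linarith

lemma lowerR (c g : ℕ → ℝ) (R M τ k : ℕ) (hc : ∀ i < R, 0 ≤ c i) (hg : ∀ p, -1 ≤ g p)
    (hrun : ∀ p, M ≤ p → p < M + R → g p = 1) (hk : τ = M + k) (hkR : k ≤ R) :
    2 * ∑ i ∈ range (R - k), c i - ∑ i ∈ range R, c i ≤ ∑ i ∈ range R, c i * g (τ + i) := by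
  obtain ⟨r, rfl⟩ := Nat.exists_eq_add_of_le hkR
  have e : k + r - k = r := by omega
  rw [e, add_comm k r, Finset.sum_range_add, Finset.sum_range_add]
  have h1 : -∑ x ∈ range k, c (r + x) ≤ ∑ x ∈ range k, c (r + x) * g (τ + (r + x)) := by
    rw [← Finset.sum_neg_distrib]
    refine Finset.sum_le_sum fun i hi => ?_
    have := hc (r + i) (by have := Finset.mem_range.1 hi; omega)
    nlinarith [hg (τ + (r + i))]
  have h2 : ∑ x ∈ range r, c x * g (τ + x) = ∑ x ∈ range r, c x := by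
    refine Finset.sum_congr rfl fun x hx => ?_
    have := Finset.mem_range.1 hx
    rw [hrun (τ + x) (by omega) (by omega), mul_one]
  rw [h2]; linarith


lemma sharp_aux (h : ZMod n → ℤ) (hpm : ∀ j, h j = 1 ∨ h j = -1)
    (H : (Matrix.of fun i j : ZMod n => h (j - i)) *
        (Matrix.of fun i j : ZMod n => h (j - i)).transpose =
        (n : ℤ) • (1 : Matrix (ZMod n) (ZMod n) ℤ))
    (a d : ZMod n) (R : ℕ) (hR2 : 2 ≤ R) (hR : R ≤ addOrderOf d)
    (ε : ℤ) (hε : ε = 1 ∨ ε = -1)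
    (hrun : ∀ i < R, h (a + i • d) = ε ^ i * h a) :
    1 ≤ (n : ℝ) * sin (π / (2 * R)) ^ 2 := by
  have hR0 : (0 : ℝ) < R := by positivity
  have hR2' : (2 : ℝ) ≤ R := by exact_mod_cast hR2
  have hεε : ε * ε = 1 := by rcases hε with h | h <;> simp [h]
  have hhh : ∀ j, h j * h j = 1 := by intro j; rcases hpm j with h | h <;> simp [h]
  have hpow : ∀ i : ℕ, ε ^ i * ε ^ i = 1 := by
    intro i; rw [← mul_pow, hεε, one_pow]
  set θ : ℝ := π / R with hθ
  have hθ0 : 0 < θ := by positivity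
  have hRθ : (R : ℝ) * θ = π := by rw [hθ]; field_simp
  have hhalf : π / (2 * R) = θ / 2 := by rw [hθ]; field_simp
  rw [hhalf]
  set σ : ℝ := sin (θ / 2) with hσ
  have hσ0 : 0 < σ := by
    apply sin_pos_of_pos_of_lt_pi (by positivity)
    have : θ ≤ π / 2 := by
      rw [hθ]; apply div_le_div_of_nonneg_left pi_pos.le (by norm_num) hR2'
    linarith [pi_pos]
  set c : ℕ → ℝ := fun i => sin ((2 * i + 1) * θ / 2) with hc_def
  have hc : ∀ i < R, 0 ≤ c i := by
    intro i hi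
    apply sin_nonneg_of_nonneg_of_le_pi (by positivity)
    have h1 : (2 * (i : ℝ) + 1) ≤ 2 * R := by
      have : 2 * i + 1 ≤ 2 * R := by omega
      exact_mod_cast this
    calc (2 * (i : ℝ) + 1) * θ / 2 ≤ (2 * R) * θ / 2 := by gcongr
      _ = π := by rw [← hRθ]; ring
  have hC : ∀ k : ℕ, 2 * σ * ∑ i ∈ range k, c i = 1 - cos (k * θ) := fun k => partial_sum θ k
  set M : ℕ := (R - 1) / 2 with hM
  set a' : ZMod n := a - M • d with ha'
  set s0 : ℤ := ε ^ M * h a with hs0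
  have hs0s : s0 * s0 = 1 := by
    rw [hs0]; calc ε ^ M * h a * (ε ^ M * h a) = (ε ^ M * ε ^ M) * (h a * h a) := by ring
      _ = 1 := by rw [hpow, hhh]; norm_num
  set f : ℕ → ℤ := fun p => ε ^ p * h (a' + p • d) * s0 with hf_def
  have hfsq : ∀ p, f p * f p = 1 := by
    intro p
    calc f p * f p = (ε ^ p * ε ^ p) * (h (a' + p • d) * h (a' + p • d)) * (s0 * s0) := by
          simp only [hf_def]; ring
      _ = 1 := by rw [hpow, hhh, hs0s]; norm_num
  have hf : ∀ p, (-1 : ℝ) ≤ (f p : ℝ) := by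
    intro p
    rcases mul_self_eq_one_iff.1 (hfsq p) with h | h <;> rw [h] <;> norm_num
  have hrun' : ∀ p, M ≤ p → p < M + R → (f p : ℝ) = 1 := by
    intro p h1 h2
    obtain ⟨i, rfl⟩ := Nat.exists_eq_add_of_le h1
    have hi : i < R := by omega
    have e : a' + (M + i) • d = a + i • d := by
      rw [ha', add_smul]; abel
    have : f (M + i) = 1 := by
      simp only [hf_def]
      rw [e, hrun i hi, hs0, pow_add]
      calc ε ^ M * ε ^ i * (ε ^ i * h a) * (ε ^ M * h a)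
          = (ε ^ M * ε ^ M) * (ε ^ i * ε ^ i) * (h a * h a) := by ring
        _ = 1 := by rw [hpow, hpow, hhh]; norm_num
    rw [this]; norm_num
  set I : ℕ → ℝ := fun τ => ∑ i ∈ range R, c i * (f (τ + i) : ℝ) with hI
  -- Claim A
  have hA : ∀ τ < R, cos (-(M * θ) + τ * θ) ^ 2 ≤ σ ^ 2 * (I τ) ^ 2 := by
    intro τ hτ
    have hcosR : cos ((R : ℝ) * θ) = -1 := by rw [hRθ, cos_pi]
    have main : ∃ k : ℕ, 2 * k ≤ R ∧ cos (-(M * θ) + τ * θ) = cos (k * θ) ∧ cos (k * θ) ≤ σ * I τ := by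
      rcases le_or_gt τ M with hle | hlt
      · refine ⟨M - τ, by omega, ?_, ?_⟩
        · rw [Nat.cast_sub hle, ← cos_neg]; congr 1; ring
        · have hl := lowerL c (fun p => (f p : ℝ)) R M τ (M - τ) hc hf hrun' (by omega) (by omega)
          have h1 := hC R
          have h2 := hC (M - τ)
          rw [hcosR] at h1
          have h3 : 2 * σ * (∑ i ∈ range R, c i - 2 * ∑ i ∈ range (M - τ), c i) ≤ 2 * σ * I τ :=
            mul_le_mul_of_nonneg_left hl (by positivity)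
          nlinarith
      · refine ⟨τ - M, by omega, ?_, ?_⟩
        · rw [Nat.cast_sub hlt.le]; congr 1; ring
        · have hl := lowerR c (fun p => (f p : ℝ)) R M τ (τ - M) hc hf hrun' (by omega) (by omega)
          have h1 := hC R
          have h2 := hC (R - (τ - M))
          rw [hcosR] at h1
          have e : ((R - (τ - M) : ℕ) : ℝ) * θ = π - ((τ - M : ℕ) : ℝ) * θ := by
            rw [Nat.cast_sub (by omega), sub_mul, hRθ]
          rw [e, cos_pi_sub] at h2
          have h3 : 2 * σ * (2 * ∑ i ∈ range (R - (τ - M)), c i - ∑ i ∈ range R, c i) ≤ 2 * σ * I τ :=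
            mul_le_mul_of_nonneg_left hl (by positivity)
          nlinarith
    obtain ⟨k, hk, e1, e2⟩ := main
    have hk0 : 0 ≤ cos (k * θ) := by
      apply cos_nonneg_of_neg_pi_div_two_le_of_le
      · have : 0 ≤ (k : ℝ) * θ := by positivity
        linarith [pi_pos]
      · have h1 : (2 * (k : ℝ)) ≤ R := by exact_mod_cast hk
        have : 2 * ((k : ℝ) * θ) ≤ R * θ := by nlinarith
        rw [hRθ] at this; linarith
    rw [e1, ← mul_pow]
    exact pow_le_pow_left₀ hk0 e2 2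
  -- Claim B
  have hIw : ∀ τ, (I τ) ^ 2 =
      (∑ i ∈ range R, (((ε ^ i : ℤ) : ℝ) * c i) * (h ((a' + τ • d) + i • d) : ℝ)) ^ 2 := by
    intro τ
    have e : I τ = (((ε ^ τ * s0 : ℤ)) : ℝ) *
        ∑ i ∈ range R, (((ε ^ i : ℤ) : ℝ) * c i) * (h ((a' + τ • d) + i • d) : ℝ) := by
      simp only [hI]
      rw [Finset.mul_sum]
      refine Finset.sum_congr rfl fun i _ => ?_
      simp only [hf_def]
      rw [pow_add, add_smul, add_assoc]
      push_cast
      ring
    rw [e, mul_pow]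
    have : (((ε ^ τ * s0 : ℤ)) : ℝ) ^ 2 = 1 := by
      have h1 : (ε ^ τ * s0) ^ 2 = 1 := by
        calc (ε ^ τ * s0) ^ 2 = (ε ^ τ * ε ^ τ) * (s0 * s0) := by ring
          _ = 1 := by rw [hpow, hs0s]; norm_num
      exact_mod_cast h1
    rw [this, one_mul]
  have hinj : Set.InjOn (fun t : ℕ => a' + t • d) (range R : Set ℕ) := by
    intro t ht t' ht' heq
    have ht1 : t < addOrderOf d := by
      have := Finset.mem_range.1 (Finset.mem_coe.1 ht); omega
    have ht2 : t' < addOrderOf d := by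
      have := Finset.mem_range.1 (Finset.mem_coe.1 ht'); omega
    have heq' : t • d = t' • d := add_left_cancel heq
    exact nsmul_injOn_Iio_addOrderOf (x := d) ht1 ht2 heq'
  have hsum : ∑ τ ∈ range R, (I τ) ^ 2 ≤
      ∑ j : ZMod n, (∑ i ∈ range R, (((ε ^ i : ℤ) : ℝ) * c i) * (h (j + i • d) : ℝ)) ^ 2 := by
    simp_rw [hIw]
    rw [← Finset.sum_image (f := fun j : ZMod n =>
      (∑ i ∈ range R, (((ε ^ i : ℤ) : ℝ) * c i) * (h (j + i • d) : ℝ)) ^ 2)
      (g := fun t : ℕ => a' + t • d) hinj]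
    exact Finset.sum_le_univ_sum_of_nonneg (fun j => sq_nonneg _)
  rw [window_sq_real h H d R hR] at hsum
  have hw : ∑ i ∈ range R, (((ε ^ i : ℤ) : ℝ) * c i) ^ 2 = R / 2 := by
    rw [← sin_sq_sum R hR2]
    refine Finset.sum_congr rfl fun i _ => ?_
    rw [mul_pow]
    have h1 : (((ε ^ i : ℤ)) : ℝ) ^ 2 = 1 := by
      have : (ε ^ i) ^ 2 = 1 := by rw [sq, hpow]
      exact_mod_cast this
    rw [h1, one_mul]
  rw [hw] at hsum
  have hcos : ∑ τ ∈ range R, cos (-(M * θ) + τ * θ) ^ 2 = R / 2 := cos_sq_sum R hR2 _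
  have hfin : (R : ℝ) / 2 ≤ σ ^ 2 * (n * (R / 2)) := by
    calc (R : ℝ) / 2 = ∑ τ ∈ range R, cos (-(M * θ) + τ * θ) ^ 2 := hcos.symm
      _ ≤ ∑ τ ∈ range R, σ ^ 2 * (I τ) ^ 2 :=
          Finset.sum_le_sum fun τ hτ => hA τ (Finset.mem_range.1 hτ)
      _ = σ ^ 2 * ∑ τ ∈ range R, (I τ) ^ 2 := by rw [Finset.mul_sum]
      _ ≤ σ ^ 2 * (n * (R / 2)) := by gcongr
  have : (R : ℝ) / 2 * 1 ≤ (R : ℝ) / 2 * (n * σ ^ 2) := by nlinarith
  exact le_of_mul_le_mul_left this (by positivity)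


lemma example4 : ∃ h : ZMod 4 → ℤ, (∀ j, h j = 1 ∨ h j = -1) ∧
      (Matrix.of fun i j : ZMod 4 => h (j - i)) *
        (Matrix.of fun i j : ZMod 4 => h (j - i)).transpose =
        ((4 : ℕ) : ℤ) • (1 : Matrix (ZMod 4) (ZMod 4) ℤ) ∧
      (∀ i < 3, h (0 + i • (1 : ZMod 4)) = 1 ^ i * h 0) ∧
      ((4 : ℕ) : ℝ) * sin (π / (2 * (3 : ℕ))) ^ 2 = 1 := by
  refine ⟨fun j => if j = 3 then -1 else 1, ?_, ?_, ?_, ?_⟩
  · intro j; by_cases hj : j = 3 <;> simp [hj]
  · decide
  · decide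
  · have : π / (2 * ((3 : ℕ) : ℝ)) = π / 6 := by push_cast; ring
    rw [this, sin_pi_div_six]; norm_num

lemma cor (n R : ℕ) (hR1 : 1 ≤ R) (h : 1 ≤ (n : ℝ) * sin (π / (2 * R)) ^ 2) :
    (R : ℝ) ≤ π / 2 * √n := by
  have hR0 : (0 : ℝ) < R := by positivity
  set x : ℝ := π / (2 * R) with hx
  have hx0 : 0 < x := by positivity
  have hxpi : x ≤ π := by
    rw [hx, div_le_iff₀ (by positivity)]
    have : (1 : ℝ) ≤ R := by exact_mod_cast hR1
    nlinarith [pi_pos]
  have hs0 : 0 ≤ sin x := sin_nonneg_of_nonneg_of_le_pi hx0.le hxpi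
  have hs : sin x ≤ x := sin_le hx0.le
  have h2 : sin x ^ 2 ≤ x ^ 2 := pow_le_pow_left₀ hs0 hs 2
  have hn0 : (0 : ℝ) ≤ n := by positivity
  have h3 : 1 ≤ (n : ℝ) * x ^ 2 := le_trans h (by gcongr)
  have h4 : (R : ℝ) ^ 2 ≤ (π / 2 * √n) ^ 2 := by
    rw [mul_pow, Real.sq_sqrt hn0]
    have e : x * (2 * R) = π := by rw [hx]; field_simp
    have : (R : ℝ) ^ 2 * 1 ≤ (R : ℝ) ^ 2 * (n * x ^ 2) := by gcongr
    calc (R : ℝ) ^ 2 = (R : ℝ) ^ 2 * 1 := by ring
      _ ≤ (R : ℝ) ^ 2 * (n * x ^ 2) := this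
      _ = ((x * (2 * R)) / 2) ^ 2 * n := by ring
      _ = (π / 2) ^ 2 * n := by rw [e]
  exact (pow_le_pow_iff_left₀ hR0.le (by positivity) (by norm_num)).1 h4

/-- Sharp bound on runs along arithmetic progressions in the first row of a circulant Hadamard
matrix, together with the order-4 example showing that the bound is attained. -/
theorem result :
    (∀ (n : ℕ) [NeZero n] (h : ZMod n → ℤ), (∀ j, h j = 1 ∨ h j = -1) →
      (Matrix.of fun i j : ZMod n => h (j - i)) *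
        (Matrix.of fun i j : ZMod n => h (j - i)).transpose =
        (n : ℤ) • (1 : Matrix (ZMod n) (ZMod n) ℤ) →
      ∀ (a d : ZMod n) (R : ℕ), 1 ≤ R → R ≤ addOrderOf d →
      ∀ ε : ℤ, (ε = 1 ∨ ε = -1) → (∀ i < R, h (a + i • d) = ε ^ i * h a) →
        1 ≤ (n : ℝ) * sin (π / (2 * R)) ^ 2 ∧ (R : ℝ) ≤ π / 2 * √n) ∧
    (∃ h : ZMod 4 → ℤ, (∀ j, h j = 1 ∨ h j = -1) ∧
      (Matrix.of fun i j : ZMod 4 => h (j - i)) *
        (Matrix.of fun i j : ZMod 4 => h (j - i)).transpose =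
        ((4 : ℕ) : ℤ) • (1 : Matrix (ZMod 4) (ZMod 4) ℤ) ∧
      (∀ i < 3, h (0 + i • (1 : ZMod 4)) = 1 ^ i * h 0) ∧
      ((4 : ℕ) : ℝ) * sin (π / (2 * (3 : ℕ))) ^ 2 = 1) := by
  refine ⟨?_, example4⟩
  intro n _ h hpm H a d R hR1 hR ε hε hrun
  have main : 1 ≤ (n : ℝ) * sin (π / (2 * R)) ^ 2 := by
    rcases Nat.lt_or_ge R 2 with h2 | h2
    · have hR' : R = 1 := by omega
      subst hR'
      have hn : (1 : ℝ) ≤ n := by
        have : 1 ≤ n := Nat.one_le_iff_ne_zero.2 (NeZero.ne n)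
        exact_mod_cast this
      have e : π / (2 * ((1 : ℕ) : ℝ)) = π / 2 := by push_cast; ring
      rw [e, sin_pi_div_two]; linarith
    · exact sharp_aux h hpm H a d R h2 hR ε hε hrun
  exact ⟨main, cor n R hR1 main⟩

end Vale.Agent.Results.P033.SharpRun
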